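import Vale.Agent.P011UGA.IF
import Vale.Agent.P183CH2.Len

/-!
The stabiliser of a coweight modulo twice the coroot lattice is generated by reflections.
-/

set_option autoImplicit false
set_option linter.all false

namespace Vale.Agent.P011UGF1

open Vale.Agent.P183CH Vale.Agent.P183CH.RS

variable {R : RS} {J : Set (Fin R.r)} {u v w : R.Aut} {j : Fin R.r} {β : R.Q}

/-- the coweights -/
abbrev Cw (R : RS) : Type := R.Q →ₗ[ℤ] ℤ

variable {f g : Cw R}

/-- the action of the Weyl group -/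
def ac (f : Cw R) (w : R.Aut) : Cw R := f ∘ₗ w.toLinearMap

theorem ac_apply (f : Cw R) (w : R.Aut) (γ : R.Q) : ac f w γ = f (w γ) := rfl

theorem ac_mul (f : Cw R) (w w' : R.Aut) : ac f (w * w') = ac (ac f w) w' := rfl

/-- the coroot lattice -/
def cw (R : RS) : R.Q →ₗ[ℤ] Cw R := Fintype.linearCombination ℤ R.prL

theorem cw_apply (n γ : R.Q) : cw R n γ = ∑ m, n m * R.pr γ m := by
  simp [cw, Fintype.linearCombination_apply, prL_apply]

theorem cw_α (j : Fin R.r) : cw R (R.α j) = R.prL j := by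
  simp [cw, α, Fintype.linearCombination_apply_single]

/-- the coroot lattice of `J` -/
def L (J : Set (Fin R.r)) : Submodule ℤ (Cw R) where
  carrier := {f | ∃ n, R.In J n ∧ cw R n = f}
  add_mem' := by
    rintro _ _ ⟨n, h, rfl⟩ ⟨m, h', rfl⟩
    exact ⟨_, h.add h', map_add _ _ _⟩
  zero_mem' := ⟨0, fun _ _ => rfl, map_zero _⟩
  smul_mem' := by
    rintro c _ ⟨n, h, rfl⟩
    exact ⟨_, h.smul c, map_smul _ _ _⟩

/-- the height -/
def hgt (R : RS) : Cw R := ∑ i, LinearMap.proj i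

theorem hgt_apply (γ : R.Q) : hgt R γ = R.ht γ := by simp [hgt, ht]

open Classical in
/-- the invariant form -/
noncomputable def bs (J : Set (Fin R.r)) (f g : Cw R) : ℤ :=
  ∑ β ∈ R.Φ.filter (R.In J), f β * g β

theorem bs_comm (f g : Cw R) : bs J f g = bs J g f := by simp only [bs, mul_comm]

theorem bs_sub (f f' g : Cw R) (c : ℤ) : bs J (f - c • f') g = bs J f g - c * bs J f' g := by
  simp only [bs, Finset.mul_sum, ← Finset.sum_sub_distrib, LinearMap.sub_apply,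
    LinearMap.smul_apply, smul_eq_mul]
  exact Finset.sum_congr rfl fun _ _ => by ring

theorem bs_sub' (f g g' : Cw R) (c : ℤ) : bs J f (g - c • g') = bs J f g - c * bs J f g' := by
  rw [bs_comm, bs_sub, bs_comm g, bs_comm g']

theorem bs_nonneg (f : Cw R) : 0 ≤ bs J f f := Finset.sum_nonneg fun _ _ => mul_self_nonneg _

theorem bs_pos (h : β ∈ R.Φ) (h' : R.In J β) (e : f β ≠ 0) : 0 < bs J f f := by
  classical
  exact Finset.sum_pos' (fun _ _ => mul_self_nonneg _)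
    ⟨β, by simpa using ⟨h, h'⟩, mul_self_pos.2 e⟩

theorem bs_cw (f : Cw R) (n : R.Q) : bs J f (cw R n) = ∑ m, n m * bs J f (R.prL m) := by
  simp only [bs, cw_apply, Finset.mul_sum, prL_apply]
  rw [Finset.sum_comm]
  exact Finset.sum_congr rfl fun _ _ => Finset.sum_congr rfl fun _ _ => by ring

variable (hR : R.Ok)
include hR

theorem ac_rf (f : Cw R) (u : R.Aut) (j : Fin R.r) :
    ac f (u * R.sE j * u⁻¹) = f - f (u (R.α j)) • ac (R.prL j) u⁻¹ := LinearMap.ext fun γ => by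
  rw [ac_apply, mul_app, mul_app, hR.sE_eq, map_sub, map_smul, app_inv, map_sub, map_smul]
  exact congrArg _ (mul_comm _ _)

theorem ac_sE (f : Cw R) (j : Fin R.r) : ac f (R.sE j) = f - f (R.α j) • R.prL j :=
  ac_rf hR f 1 j

theorem L_ac (hw : w ∈ R.WJ J) (hf : f ∈ L J) : ac f w ∈ L J := by
  obtain ⟨l, hl, rfl⟩ := hR.exists_wd hw
  clear hw
  induction l generalizing f with
  | nil => exact hf
  | cons a l ih =>
    rw [wd_cons, ac_mul, ac_sE hR]
    exact ih (sub_mem hf (Submodule.smul_mem _ _ ⟨_, In_α (hl a List.mem_cons_self), cw_α a⟩))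
      fun i h => hl i (List.mem_cons_of_mem _ h)

theorem bs_ac (hw : w ∈ R.WJ J) (f g : Cw R) : bs J (ac f w) (ac g w) = bs J f g := by
  classical
  refine Finset.sum_equiv w.toEquiv (fun β => ?_) fun _ _ => rfl
  simp only [Finset.mem_filter]
  exact ⟨fun h => ⟨hR.map_mem (WJ_le J hw) h.1, hR.map_In hw h.2⟩, fun h =>
    inv_app w β ▸ ⟨hR.map_mem (WJ_le J (inv_mem hw)) h.1, hR.map_In (inv_mem hw) h.2⟩⟩

theorem cv_self (u : R.Aut) (j : Fin R.r) : ac (R.prL j) u⁻¹ (u (R.α j)) = 2 := by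
  rw [ac_apply, inv_app, prL_apply, pr_α, hR.diag]

theorem rt (hu : u ∈ R.WJ J) (hj : j ∈ J) : u (R.α j) ∈ R.Φ ∧ R.In J (u (R.α j)) :=
  ⟨hR.map_mem (WJ_le J hu) (hR.simple j), hR.map_In hu (In_α hj)⟩

theorem bs_cv (hu : u ∈ R.WJ J) (hj : j ∈ J) : ∃ c, 0 < c ∧ ∀ f : Cw R,
    2 * bs J f (ac (R.prL j) u⁻¹) = f (u (R.α j)) * c := by
  refine ⟨_, bs_pos (f := ac (R.prL j) u⁻¹) (rt hR hu hj).1 (rt hR hu hj).2
    (by rw [cv_self hR]; decide), fun f => ?_⟩
  have := bs_ac hR (mul_mem (mul_mem hu (sE_mem hj)) (inv_mem hu)) f (ac (R.prL j) u⁻¹)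
  rw [ac_rf hR, ac_rf hR, cv_self hR, bs_sub, bs_sub', bs_sub'] at this
  linarith

/-- no nonzero element of the coroot lattice is minuscule -/
theorem minu (hf : f ∈ L J) (h : ∀ β ∈ R.Φ, R.In J β → |f β| ≤ 1) :
    ∀ β ∈ R.Φ, R.In J β → f β = 0 := by
  obtain ⟨n, hn, rfl⟩ := hf
  induction e : ∑ m, (n m).natAbs using Nat.strong_induction_on generalizing n with
  | _ N ih =>
  intro β h1 h2
  by_contra c
  have h3 := bs_pos h1 h2 c
  rw [bs_cw] at h3
  obtain ⟨m, -, h4⟩ := Finset.exists_lt_of_sum_lt (f := fun _ => (0 : ℤ)) (by simpa using h3)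
  have hm : m ∈ J := by_contra fun c => by simp [hn m c] at h4
  obtain ⟨a, ha, h5⟩ := bs_cv hR (one_mem _) hm
  have h6 : 2 * bs J (cw R n) (R.prL m) = cw R n (R.α m) * a := h5 _
  have h7 := abs_le.1 (h _ (hR.simple m) (In_α hm))
  have h8 : 0 < n m * cw R n (R.α m) := (mul_pos_iff_of_pos_right ha).1 (by
    rw [mul_assoc, ← h6]
    linarith)
  have h9 : cw R (n - cw R n (R.α m) • R.α m) = ac (cw R n) (R.sE m) := by
    rw [ac_sE hR, map_sub, map_smul, cw_α]
  have := ih _ ?_ (n - cw R n (R.α m) • R.α m) (by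
    simpa [sub_eq_add_neg] using hn.add ((In_α hm).smul _).neg) (fun γ a b => by
      rw [h9]
      exact h _ (hR.map_mem (sE_mem_W m) a) (hR.map_In (sE_mem hm) b)) rfl _
    (hR.map_mem (sE_mem_W m) h1) (hR.map_In (sE_mem hm) h2)
  · rw [h9, ac_apply, hR.sE_sE] at this
    exact c this
  rw [← e]
  refine Finset.sum_lt_sum (fun i _ => ?_) ⟨m, Finset.mem_univ _, ?_⟩
  all_goals simp only [Pi.sub_apply, Pi.smul_apply, α_apply, smul_eq_mul, if_true, mul_one]
  · split_ifs with e'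
    · subst e'
      generalize cw R n (R.α i) = x at *
      obtain rfl | rfl | rfl : x = -1 ∨ x = 0 ∨ x = 1 := by omega
      all_goals omega
    · simp
  · generalize cw R n (R.α m) = x at *
    obtain rfl | rfl | rfl : x = -1 ∨ x = 0 ∨ x = 1 := by omega
    all_goals omega

/-- a subgroup moves a coweight to the chamber of another one -/
theorem exists_max {H : Subgroup R.Aut} (hH : H ≤ R.WJ J) (f g : Cw R) : ∃ v ∈ H,
    ∀ u ∈ R.WJ J, ∀ j ∈ J, u * R.sE j * u⁻¹ ∈ H → 0 ≤ f (v (u (R.α j))) * g (u (R.α j)) := by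
  haveI := hR.finite_W
  obtain ⟨v, hv, h0⟩ := Set.exists_max_image (H : Set R.Aut) (fun v => bs J (ac f v) g)
    ((Set.toFinite (R.W : Set R.Aut)).subset (hH.trans (WJ_le J))) ⟨1, one_mem _⟩
  refine ⟨v, hv, fun u hu j hj h => ?_⟩
  have h1 := h0 _ (mul_mem hv h)
  obtain ⟨c, hc, h2⟩ := bs_cv hR hu hj
  rw [ac_mul, ac_rf hR, bs_sub, bs_comm (ac (R.prL j) _), ac_apply] at h1
  refine nonneg_of_mul_nonneg_left ?_ hc
  rw [mul_assoc, ← h2]
  linarith

theorem ht_ne (h : β ∈ R.Φ) : R.ht β ≠ 0 := by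
  rcases (hR.sign β h).2 with e | e
  · exact (hR.ht_pos ⟨h, e⟩).ne'
  · have := hR.ht_pos ⟨hR.neg_mem h, neg_nonneg.2 e⟩
    rw [← hgt_apply, map_neg, hgt_apply] at this
    omega

/-- the Weyl group acts freely on the chambers -/
theorem free (hw : w ∈ R.WJ J) (h : ∀ β ∈ R.Φ, R.In J β → 0 < f (w β) * f β) : w = 1 := by
  obtain ⟨v, hv, h1⟩ := exists_max hR le_rfl f (hgt R)
  have h2 : ∀ j ∈ J, 0 ≤ f (v (R.α j)) := fun j hj => by
    simpa [hgt_apply, ht_α] using h1 1 (one_mem _) j hj (by simpa using sE_mem hj)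
  have hx := mul_mem (mul_mem (inv_mem hv) hw) hv
  have := hR.eq_one hx fun j hj => (hR.sign' (WJ_le J hx) (hR.simple j)).resolve_right fun c => ?_
  · rwa [mul_assoc, inv_mul_eq_one, eq_comm, mul_eq_right] at this
  have h3 := h _ (rt hR hv hj).1 (rt hR hv hj).2
  have h4 : f (w (v (R.α j))) ≤ 0 := by
    rw [← app_inv v (w _), map_eq v, map_sum]
    refine Finset.sum_nonpos fun i _ => ?_
    rw [map_smul]
    by_cases e : i ∈ J
    · exact mul_nonpos_of_nonpos_of_nonneg (c i) (h2 i e)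
    · exact ((congrArg (· * _) ((rt hR hx hj).2 i e)).trans (zero_mul _)).le
  nlinarith [h2 j hj]

/-- a translate into the cell of the origin -/
theorem exists_min (p : Cw R) {N : ℤ} (hN : 0 < N) : ∃ m ∈ L J, ∀ β ∈ R.Φ, R.In J β →
    (p - N • m) β ≤ N := by
  obtain ⟨⟨m, hm⟩, h⟩ := exists_minimalFor_of_wellFoundedLT (fun _ : L J => True)
    (fun m => (bs J (p - N • m.1) (p - N • m.1)).toNat) ⟨0, trivial⟩
  refine ⟨m, hm, fun β h1 h2 => ?_⟩
  obtain ⟨u, hu, j, hj, rfl⟩ := hR.exists_conj_J h1 h2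
  obtain ⟨c, hc, h3⟩ := bs_cv hR hu hj
  have h4 := h.le (j := ⟨m + ac (R.prL j) u⁻¹, add_mem hm
    (L_ac hR (inv_mem hu) ⟨_, In_α hj, cw_α j⟩)⟩) trivial
  dsimp only at h4
  rw [smul_add, ← sub_sub] at h4
  generalize p - N • m = q at *
  rw [Int.toNat_le, Int.toNat_of_nonneg (bs_nonneg _), bs_sub, bs_sub', bs_sub',
    bs_comm (ac _ _) q] at h4
  have h5 := h3 q
  have h6 := h3 (ac (R.prL j) u⁻¹)
  rw [cv_self hR] at h6
  by_contra e
  have := mul_pos (mul_pos hN hc) (sub_pos.2 (not_le.1 e))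
  have h7 := congrArg (N * ·) h5
  have h8 := congrArg (N * N * ·) h6
  linarith

omit hR in
theorem cell {N y a b : ℤ} (ha : |a| < N) (hb : |b| < N) (h : Even y → 0 < a * b)
    (h1 : |N * y + a| ≤ 2 * N) (a0 : a ≠ 0) :
    |N * y + a| < 2 * N ∧ |N * y + b| < 2 * N ∧ 0 < (N * y + b) * (N * y + a) := by
  rw [abs_lt] at ha hb ⊢
  rw [abs_lt]
  rw [abs_le] at h1
  have hN : 0 < N := by omega
  have h2 : y < 3 := by nlinarith
  have h3 : -3 < y := by nlinarith
  obtain rfl | rfl | rfl | rfl | rfl : y = -2 ∨ y = -1 ∨ y = 0 ∨ y = 1 ∨ y = 2 := by omega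
  · have h4 := pos_of_mul_pos_right (h (by decide)) (by omega : 0 ≤ a)
    exact ⟨by omega, by omega, mul_pos_of_neg_of_neg (by omega) (by omega)⟩
  · exact ⟨by omega, by omega, mul_pos_of_neg_of_neg (by omega) (by omega)⟩
  · exact ⟨by omega, by omega, by simpa [mul_comm] using h (by decide)⟩
  · exact ⟨by omega, by omega, mul_pos (by omega) (by omega)⟩
  · have h4 := neg_of_mul_pos_right (h (by decide)) (by omega : a ≤ 0)
    exact ⟨by omega, by omega, mul_pos (by omega) (by omega)⟩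

/-- the stabiliser modulo twice the coroot lattice -/
def St (J : Set (Fin R.r)) (y : Cw R) : Subgroup R.Aut where
  carrier := {v | v ∈ R.WJ J ∧ ∃ m ∈ L J, ac y v = y + (2 : ℤ) • m}
  one_mem' := ⟨one_mem _, 0, zero_mem _, by rw [smul_zero, add_zero]; rfl⟩
  mul_mem' := fun ⟨h, m, hm, e⟩ ⟨h', m', hm', e'⟩ => ⟨mul_mem h h', _, add_mem hm' (L_ac hR h' hm), by
    rw [ac_mul, e, smul_add, ← add_assoc, ← e']
    rfl⟩
  inv_mem' := fun {v} ⟨h, m, hm, e⟩ => ⟨inv_mem h, _, neg_mem (L_ac hR (inv_mem h) hm), by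
    have : ac y (v * v⁻¹) = ac y v⁻¹ + (2 : ℤ) • ac m v⁻¹ := by
      rw [ac_mul, e]
      rfl
    rw [mul_inv_cancel] at this
    rw [smul_neg, ← sub_eq_add_neg, eq_sub_iff_add_eq, ← this]
    rfl⟩

omit hR in
theorem aff : P011UGA.AFF := by
  intro R hR J y w hw n hn hy
  generalize hH : Subgroup.closure {v | ∃ u ∈ R.WJ J, ∃ j ∈ J, Even (y (u (R.α j))) ∧
    v = u * R.sE j * u⁻¹} = H
  have h1 : H ≤ St hR J y := hH ▸ (Subgroup.closure_le _).2 (by
    rintro _ ⟨u, hu, j, hj, ⟨c, hc⟩, rfl⟩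
    exact ⟨mul_mem (mul_mem hu (sE_mem hj)) (inv_mem hu), _, Submodule.smul_mem _ (-c)
      (L_ac hR (inv_mem hu) ⟨_, In_α hj, cw_α j⟩), by rw [ac_rf hR, hc]; module⟩)
  obtain ⟨v, hv, h2⟩ := exists_max hR (fun _ h => (h1 h).1) (ac (hgt R) w) (hgt R)
  obtain ⟨hx, m, hm, h3⟩ := mul_mem (show w ∈ St hR J y from ⟨hw, _, ⟨n, hn, rfl⟩,
    LinearMap.ext fun γ => (hy γ).trans (by rw [← cw_apply]; rfl)⟩) (h1 hv)
  obtain ⟨N, hN⟩ := (R.Φ.finite_toSet.image fun γ => |R.ht γ| + 1).bddAbove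
  have h4 : ∀ β ∈ R.Φ, |R.ht β| < N := fun β h => hN ⟨β, h, rfl⟩
  have h5 : 0 < N := (abs_nonneg _).trans_lt (h4 _ (hR.simple ⟨0, hR.pos⟩))
  obtain ⟨m', hm', h6⟩ := exists_min hR (J := J) (N • y + hgt R) (N := 2 * N) (by omega)
  generalize hp : N • y + hgt R - (2 * N) • m' = p at h6
  have h7 : ∀ γ, p γ = N * (y γ - 2 * m' γ) + R.ht γ := fun γ => by
    rw [← hp, ← hgt_apply]
    simp only [LinearMap.sub_apply, LinearMap.add_apply, LinearMap.smul_apply, smul_eq_mul]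
    ring
  have h8 : ∀ β ∈ R.Φ, R.In J β → |p β| < 2 * N ∧
      |N * (y β - 2 * m' β) + R.ht ((w * v) β)| < 2 * N ∧
      0 < (N * (y β - 2 * m' β) + R.ht ((w * v) β)) * p β := fun β a b => by
    have a' := hR.map_mem (WJ_le J hx) a
    rw [h7]
    refine cell (h4 _ a) (h4 _ a') (fun e => ?_) ?_ (ht_ne hR a)
    · obtain ⟨u, hu, j, hj, rfl⟩ := hR.exists_conj_J a b
      have := h2 u hu j hj (hH ▸ Subgroup.subset_closure ⟨u, hu, j, hj,
        (Int.even_sub.1 e).2 (even_two_mul _), rfl⟩)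
      rw [ac_apply, hgt_apply, hgt_apply, mul_comm] at this
      exact this.lt_of_ne (mul_ne_zero (ht_ne hR a) (ht_ne hR a')).symm
    · rw [← h7]
      exact abs_le.2 ⟨by simpa [neg_le] using h6 _ (hR.neg_mem a) b.neg, h6 _ a b⟩
  have h9 : ∀ β, p ((w * v) β) = N * (y β - 2 * m' β) + R.ht ((w * v) β) +
      2 * N * (m + m' - ac m' (w * v)) β := fun β => by
    rw [h7, ← ac_apply y, h3]
    simp only [LinearMap.sub_apply, LinearMap.add_apply, LinearMap.smul_apply, smul_eq_mul,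
      ac_apply]
    ring
  have h10 := minu hR (sub_mem (add_mem hm hm') (L_ac hR hx hm')) fun β a b => by
    have e1 := abs_lt.1 (h8 β a b).2.1
    have e2 := abs_lt.1 (h8 _ (hR.map_mem (WJ_le J hx) a) (hR.map_In hx b)).1
    rw [h9] at e2
    generalize (m + m' - ac m' (w * v)) β = z at e2
    exact abs_le.2 ⟨by nlinarith, by nlinarith⟩
  rw [eq_inv_of_mul_eq_one_left (free hR (f := p) hx fun β a b => by
    rw [h9, h10 β a b, mul_zero, add_zero]
    exact (h8 β a b).2.2)]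
  exact inv_mem hv

end Vale.Agent.P011UGF1
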